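import Vale.Agent.P296.Asm
import Vale.Agent.P296.Met
import Vale.Agent.P296.Core
import Vale.Agent.P296.Amp

namespace Vale.Agent.Results.P296.NoMetric
open Vale.Agent.P296

/-- An ample rank two bundle on `P1 × P1` without a strictly Griffiths positive metric. -/
theorem result : ∃ E : Bundle 2, Ample E ∧ ¬∃ h, IsGriffiths E h :=
  assemble met core (amp gg)

end Vale.Agent.Results.P296.NoMetric
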